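import Vale.Agent.P155.G1.Annulus

/-!
# P155, block G1: power decay of harmonic functions near the complement

* `decay` : `∃ β > 0, SupDecay 2 β ∧ OutDecay 2 β`.
-/

namespace Vale.Agent.P155.G1

open Finset Vale.Agent.P155.G45

/-- Maximum principle in a box, for functions vanishing off `O`. -/
lemma max_in {O : Set Pt} {p : Pt} {s : ℕ} {m : ℝ} (hm : 0 ≤ m) {u : Pt → ℝ}
    (hoff : ∀ x, x ∉ O → u x = 0) (hlap : ∀ x ∈ O, dn p x < s → lap u x = 0)
    (hs : ∀ x, dn p x = s → |u x| ≤ m) : ∀ x, dn p x ≤ s → |u x| ≤ m := by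
  classical
  have key : ∀ v : Pt → ℝ, (∀ x, x ∉ O → v x = 0) → (∀ x ∈ O, dn p x < s → lap v x = 0) →
      (∀ x, dn p x = s → v x ≤ m) → ∀ x, dn p x ≤ s → v x ≤ m := by
    intro v hoff hlap hs x hx
    set D : Set Pt := {x | x ∈ O ∧ dn p x < s} with hD
    have hDf : D.Finite := by
      apply (box p s).finite_toSet.subset
      intro y hy
      exact mem_box.2 hy.2.le
    have h := max_principle hDf (u := fun y => if dn p y ≤ s then v y - m else 0) ?_ ?_ x
    · rw [if_pos hx] at h; linarith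
    · intro y hy
      have hl := hlap y hy.1 hy.2
      have n1 : dn p (y.1 + 1, y.2) ≤ s := by
        have := hy.2; rw [dn_eq] at *; simp only at *; omega
      have n2 : dn p (y.1 - 1, y.2) ≤ s := by
        have := hy.2; rw [dn_eq] at *; simp only at *; omega
      have n3 : dn p (y.1, y.2 + 1) ≤ s := by
        have := hy.2; rw [dn_eq] at *; simp only at *; omega
      have n4 : dn p (y.1, y.2 - 1) ≤ s := by
        have := hy.2; rw [dn_eq] at *; simp only at *; omega
      have n5 : dn p y ≤ s := hy.2.le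
      unfold lap at hl ⊢
      simp only [n1, n2, n3, n4, n5, if_true]
      linarith
    · intro y hy
      by_cases hy1 : dn p y ≤ s
      · rw [if_pos hy1]
        by_cases hyO : y ∈ O
        · have : dn p y = s := by
            by_contra hne
            exact hy ⟨hyO, by omega⟩
          linarith [hs y this]
        · rw [hoff y hyO]; linarith
      · rw [if_neg hy1]
  intro x hx
  rw [abs_le]
  constructor
  · have := key (fun y => - u y) (fun y hy => by simp [hoff y hy])
      (fun y hy hd => by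
        have := hlap y hy hd
        unfold lap at this ⊢
        linarith)
      (fun y hy => by have := (abs_le.1 (hs y hy)).1; linarith) x hx
    linarith
  · exact key u hoff hlap (fun y hy => (abs_le.1 (hs y hy)).2) x hx

/-- Maximum principle outside of a box. -/
lemma max_out {O : Set Pt} (hO : O.Finite) {p : Pt} {s : ℕ} {m : ℝ} (hm : 0 ≤ m) {u : Pt → ℝ}
    (hoff : ∀ x, x ∉ O → u x = 0) (hlap : ∀ x ∈ O, s < dn p x → lap u x = 0)
    (hs : ∀ x, dn p x = s → |u x| ≤ m) : ∀ x, s ≤ dn p x → |u x| ≤ m := by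
  classical
  have key : ∀ v : Pt → ℝ, (∀ x, x ∉ O → v x = 0) → (∀ x ∈ O, s < dn p x → lap v x = 0) →
      (∀ x, dn p x = s → v x ≤ m) → ∀ x, s ≤ dn p x → v x ≤ m := by
    intro v hoff hlap hs x hx
    set D : Set Pt := {x | x ∈ O ∧ s < dn p x} with hD
    have hDf : D.Finite := hO.subset (fun y hy => hy.1)
    have h := max_principle hDf (u := fun y => if s ≤ dn p y then v y - m else 0) ?_ ?_ x
    · rw [if_pos hx] at h; linarith
    · intro y hy
      have hl := hlap y hy.1 hy.2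
      have n1 : s ≤ dn p (y.1 + 1, y.2) := by
        have := hy.2; rw [dn_eq] at *; simp only at *; omega
      have n2 : s ≤ dn p (y.1 - 1, y.2) := by
        have := hy.2; rw [dn_eq] at *; simp only at *; omega
      have n3 : s ≤ dn p (y.1, y.2 + 1) := by
        have := hy.2; rw [dn_eq] at *; simp only at *; omega
      have n4 : s ≤ dn p (y.1, y.2 - 1) := by
        have := hy.2; rw [dn_eq] at *; simp only at *; omega
      have n5 : s ≤ dn p y := hy.2.le
      unfold lap at hl ⊢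
      simp only [n1, n2, n3, n4, n5, if_true]
      linarith
    · intro y hy
      by_cases hy1 : s ≤ dn p y
      · rw [if_pos hy1]
        by_cases hyO : y ∈ O
        · have : dn p y = s := by
            by_contra hne
            exact hy ⟨hyO, by omega⟩
          linarith [hs y this]
        · rw [hoff y hyO]; linarith
      · rw [if_neg hy1]
  intro x hx
  rw [abs_le]
  constructor
  · have := key (fun y => - u y) (fun y hy => by simp [hoff y hy])
      (fun y hy hd => by
        have := hlap y hy hd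
        unfold lap at this ⊢
        linarith)
      (fun y hy => by have := (abs_le.1 (hs y hy)).1; linarith) x hx
    linarith
  · exact key u hoff hlap (fun y hy => (abs_le.1 (hs y hy)).2) x hx

/-- One step of the inward decay. -/
lemma step_in {K : ℕ} (hK2 : 2 ≤ K)
    (hK : ∀ (O : Set Pt) (p : Pt) (a : ℕ) (M : ℝ) (u : Pt → ℝ), 1 ≤ a →
    (∀ r : ℕ, 2 * a ≤ r → r ≤ K * a → ∃ q, q ∉ O ∧ dn p q = r) → (∀ x, x ∉ O → u x = 0) →
    (∀ x ∈ O, a < dn p x → dn p x < 2 * (K * a) → lap u x = 0) →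
    (∀ x, a ≤ dn p x → dn p x ≤ 2 * (K * a) → |u x| ≤ M) →
    ∃ s, 2 * a ≤ s ∧ s ≤ K * a ∧ ∀ x, dn p x = s → |u x| ≤ M / 2)
    {O : Set Pt} {p : Pt} {L : ℕ} {M : ℝ} {u : Pt → ℝ}
    (hz : ∀ r : ℕ, r ≤ L → ∃ q, q ∉ O ∧ dn p q = r) (hoff : ∀ x, x ∉ O → u x = 0)
    (hlap : ∀ x ∈ O, dn p x < L → lap u x = 0) (hM : ∀ x, dn p x ≤ L → |u x| ≤ M) (m : ℕ) :
    ∀ a : ℕ, 1 ≤ a → (2 * K) ^ m * a ≤ L → ∀ x, dn p x ≤ a → |u x| ≤ M / 2 ^ m := by
  have hM0 : 0 ≤ M := (abs_nonneg _).trans (hM p (by rw [dn_self]; exact Nat.zero_le _))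
  induction m with
  | zero =>
    intro a _ haL x hx
    simp only [pow_zero, one_mul, div_one] at *
    exact hM x (hx.trans haL)
  | succ m ih =>
    intro a ha haL x hx
    have haL' : (2 * K) ^ m * (2 * (K * a)) ≤ L := by
      calc (2 * K) ^ m * (2 * (K * a)) = (2 * K) ^ (m + 1) * a := by ring
        _ ≤ L := haL
    have hKa : 1 ≤ 2 * (K * a) := by
      have : 0 < K * a := Nat.mul_pos (by omega) (by omega)
      omega
    have h1 := ih (2 * (K * a)) hKa haL'
    have h2 : 2 * (K * a) ≤ L :=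
      (Nat.le_mul_of_pos_left _ (pow_pos (by omega) m)).trans haL'
    obtain ⟨s, hs1, hs2, hs3⟩ := hK O p a (M / 2 ^ m) u ha (fun r _ hr => hz r (by omega)) hoff
      (fun y hy _ hd => hlap y hy (by omega)) (fun y _ hd => h1 y hd)
    have h3 := max_in (m := M / 2 ^ m / 2) (by positivity) hoff
      (fun y hy hd => hlap y hy (by omega)) hs3 x (by omega)
    calc |u x| ≤ M / 2 ^ m / 2 := h3
      _ = M / 2 ^ (m + 1) := by rw [pow_succ]; field_simp

/-- Iteration of the outward decay. -/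
lemma step_out {K : ℕ} (hK2 : 2 ≤ K)
    (hK : ∀ (O : Set Pt) (p : Pt) (a : ℕ) (M : ℝ) (u : Pt → ℝ), 1 ≤ a →
    (∀ r : ℕ, 2 * a ≤ r → r ≤ K * a → ∃ q, q ∉ O ∧ dn p q = r) → (∀ x, x ∉ O → u x = 0) →
    (∀ x ∈ O, a < dn p x → dn p x < 2 * (K * a) → lap u x = 0) →
    (∀ x, a ≤ dn p x → dn p x ≤ 2 * (K * a) → |u x| ≤ M) →
    ∃ s, 2 * a ≤ s ∧ s ≤ K * a ∧ ∀ x, dn p x = s → |u x| ≤ M / 2)
    {O : Set Pt} (hO : O.Finite) {p : Pt} {a : ℕ} (ha : 1 ≤ a) {M : ℝ} (hM0 : 0 ≤ M) {u : Pt → ℝ}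
    (hz : ∀ r : ℕ, ∃ q, q ∉ O ∧ dn p q = r) (hoff : ∀ x, x ∉ O → u x = 0)
    (hlap : ∀ x ∈ O, a < dn p x → lap u x = 0) (hM : ∀ x, a ≤ dn p x → |u x| ≤ M) (m : ℕ) :
    ∀ x, (2 * K) ^ m * a ≤ dn p x → |u x| ≤ M / 2 ^ m := by
  induction m with
  | zero =>
    intro x hx
    simp only [pow_zero, one_mul, div_one] at *
    exact hM x hx
  | succ m ih =>
    intro x hx
    have ha' : 1 ≤ (2 * K) ^ m * a := by
      have : 0 < (2 * K) ^ m * a := Nat.mul_pos (pow_pos (by omega) m) (by omega)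
      omega
    have haa : a ≤ (2 * K) ^ m * a := Nat.le_mul_of_pos_left _ (pow_pos (by omega) m)
    obtain ⟨s, hs1, hs2, hs3⟩ := hK O p ((2 * K) ^ m * a) (M / 2 ^ m) u ha' (fun r _ _ => hz r) hoff
      (fun y hy hd _ => hlap y hy (by omega)) (fun y hd _ => ih y hd)
    have hx' : s ≤ dn p x := by
      calc s ≤ K * ((2 * K) ^ m * a) := hs2
        _ ≤ 2 * (K * ((2 * K) ^ m * a)) := by omega
        _ = (2 * K) ^ (m + 1) * a := by ring
        _ ≤ dn p x := hx
    have h3 := max_out hO (m := M / 2 ^ m / 2) (by positivity) hoff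
      (fun y hy hd => hlap y hy (by omega)) hs3 x hx'
    calc |u x| ≤ M / 2 ^ m / 2 := h3
      _ = M / 2 ^ (m + 1) := by rw [pow_succ]; field_simp

/-- **Block G1.** Inward and outward power decay. -/
theorem decay : ∃ β : ℝ, 0 < β ∧ SupDecay 2 β ∧ OutDecay 2 β := by
  obtain ⟨K, hK2, hK⟩ := annulus
  have hK1 : (1 : ℝ) < ((2 * K : ℕ) : ℝ) := by
    have : 1 < 2 * K := by omega
    exact_mod_cast this
  have hKpos : (0 : ℝ) < ((2 * K : ℕ) : ℝ) := by linarith
  set β : ℝ := Real.log 2 / Real.log ((2 * K : ℕ) : ℝ) with hβ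
  have hlog : 0 < Real.log ((2 * K : ℕ) : ℝ) := Real.log_pos hK1
  have hβ0 : 0 < β := div_pos (Real.log_pos (by norm_num)) hlog
  have hKβ : (((2 * K : ℕ) : ℝ)) ^ β = 2 := by
    rw [Real.rpow_def_of_pos hKpos, hβ, mul_div_cancel₀ _ hlog.ne', Real.exp_log (by norm_num)]
  -- comparison of powers
  have hpow : ∀ (t : ℝ) (m : ℕ), 0 < t → 1 / (((2 * K : ℕ) : ℝ)) ^ (m + 1) ≤ t →
      (1 : ℝ) / 2 ^ m ≤ 2 * t ^ β := by
    intro t m ht h
    have h1 : (1 / (((2 * K : ℕ) : ℝ)) ^ (m + 1)) ^ β ≤ t ^ β :=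
      Real.rpow_le_rpow (by positivity) h hβ0.le
    have h2 : (1 / (((2 * K : ℕ) : ℝ)) ^ (m + 1)) ^ β = 1 / 2 ^ (m + 1) := by
      rw [Real.div_rpow zero_le_one (by positivity), Real.one_rpow, ← Real.rpow_natCast,
        ← Real.rpow_mul hKpos.le, mul_comm ((m + 1 : ℕ) : ℝ) β, Real.rpow_mul hKpos.le, hKβ,
        Real.rpow_natCast]
    rw [h2] at h1
    calc (1 : ℝ) / 2 ^ m = 2 * (1 / 2 ^ (m + 1)) := by rw [pow_succ]; field_simp
      _ ≤ 2 * t ^ β := by linarith
  refine ⟨β, hβ0, ?_, ?_⟩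
  · intro O p L M u hz hoff hlap hM x hx
    have hM0 : 0 ≤ M := (abs_nonneg _).trans (hM p (by rw [dn_self]; exact Nat.zero_le _))
    set t : ℝ := ((dn p x : ℝ) + 1) / ((L : ℝ) + 1) with ht
    have ht0 : 0 < t := by positivity
    have goal : ∀ m : ℕ, |u x| ≤ M / 2 ^ m → 1 / (((2 * K : ℕ) : ℝ)) ^ (m + 1) ≤ t →
        |u x| ≤ 2 * t ^ β * M := by
      intro m h1 h2
      calc |u x| ≤ M / 2 ^ m := h1
        _ = 1 / 2 ^ m * M := by ring
        _ ≤ 2 * t ^ β * M := mul_le_mul_of_nonneg_right (hpow t m ht0 h2) hM0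
    by_cases hL : dn p x + 1 ≤ L
    · -- maximal `m`
      have hex : ∃ m : ℕ, L < (2 * K) ^ (m + 1) * (dn p x + 1) := by
        obtain ⟨m, hm⟩ := pow_unbounded_of_one_lt L (by omega : 1 < 2 * K)
        refine ⟨m, ?_⟩
        calc L < (2 * K) ^ m := hm
          _ ≤ (2 * K) ^ (m + 1) := Nat.pow_le_pow_right (by omega) (by omega)
          _ ≤ (2 * K) ^ (m + 1) * (dn p x + 1) := Nat.le_mul_of_pos_right _ (by omega)
      classical
      set m := Nat.find hex with hm
      have hm1 : L < (2 * K) ^ (m + 1) * (dn p x + 1) := Nat.find_spec hex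
      have hm2 : (2 * K) ^ m * (dn p x + 1) ≤ L := by
        rcases Nat.eq_zero_or_pos m with h0 | h0
        · rw [h0]; simpa using hL
        · have := Nat.find_min hex (m := m - 1) (by omega)
          rw [not_lt] at this
          have e : m - 1 + 1 = m := by omega
          rwa [e] at this
      apply goal m (step_in hK2 hK hz hoff hlap hM m (dn p x + 1) (by omega) hm2 x (by omega))
      rw [ht, div_le_div_iff₀ (by positivity) (by positivity)]
      have : (L + 1 : ℕ) ≤ (2 * K) ^ (m + 1) * (dn p x + 1) := hm1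
      have h3 : ((L + 1 : ℕ) : ℝ) ≤ (((2 * K) ^ (m + 1) * (dn p x + 1) : ℕ) : ℝ) := by
        exact_mod_cast this
      push_cast at h3 ⊢
      linarith
    · apply goal 0 (by simpa using hM x hx)
      have e : dn p x = L := by omega
      rw [ht, e, div_self (by positivity)]
      rw [div_le_one (by positivity)]
      simpa using hK1.le
  · intro O p ρ M u hO hz hoff hlap hM x hx
    have hM0 : 0 ≤ M := (abs_nonneg _).trans (hM p (by rw [dn_self]; exact Nat.zero_le _))
    have hMall : ∀ y, ρ ≤ dn p y → |u y| ≤ M :=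
      max_out hO hM0 hoff hlap (fun y hy => hM y hy.le)
    set t : ℝ := ((ρ : ℝ) + 1) / ((dn p x : ℝ) + 1) with ht
    have ht0 : 0 < t := by positivity
    have hex : ∃ m : ℕ, dn p x < (2 * K) ^ (m + 1) * (ρ + 1) := by
      obtain ⟨m, hm⟩ := pow_unbounded_of_one_lt (dn p x) (by omega : 1 < 2 * K)
      refine ⟨m, ?_⟩
      calc dn p x < (2 * K) ^ m := hm
        _ ≤ (2 * K) ^ (m + 1) := Nat.pow_le_pow_right (by omega) (by omega)
        _ ≤ (2 * K) ^ (m + 1) * (ρ + 1) := Nat.le_mul_of_pos_right _ (by omega)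
    classical
    set m := Nat.find hex with hm
    have hm1 : dn p x < (2 * K) ^ (m + 1) * (ρ + 1) := Nat.find_spec hex
    have hm2 : (2 * K) ^ m * (ρ + 1) ≤ dn p x := by
      rcases Nat.eq_zero_or_pos m with h0 | h0
      · rw [h0]; simp; omega
      · have := Nat.find_min hex (m := m - 1) (by omega)
        rw [not_lt] at this
        have e : m - 1 + 1 = m := by omega
        rwa [e] at this
    have h1 := step_out hK2 hK hO (a := ρ + 1) (by omega) hM0 hz hoff
      (fun y hy hd => hlap y hy (by omega)) (fun y hy => hMall y (by omega)) m x hm2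
    calc |u x| ≤ M / 2 ^ m := h1
      _ = 1 / 2 ^ m * M := by ring
      _ ≤ 2 * t ^ β * M := by
          apply mul_le_mul_of_nonneg_right _ hM0
          apply hpow t m ht0
          rw [ht, div_le_div_iff₀ (by positivity) (by positivity)]
          have h3 : ((dn p x + 1 : ℕ) : ℝ) ≤ (((2 * K) ^ (m + 1) * (ρ + 1) : ℕ) : ℝ) := by
            exact_mod_cast hm1
          push_cast at h3 ⊢
          linarith

end Vale.Agent.P155.G1
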