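import Vale.Agent.P155.G45.Visits

/-!
# P155, block G1: decay in annuli

`annulus`: if `u` vanishes off `O`, is harmonic on `O` in the annulus `a < dn p x < 2 K a`, every
contour of the annulus meets the complement of `O`, and `|u| ≤ M` in the annulus, then
`|u| ≤ M / 2` on some contour of radius `s`, `2 a ≤ s ≤ K a`.
(Caccioppoli identity with a cut-off, and the length-area argument of Courant-Lebesgue.)
-/

namespace Vale.Agent.P155.G1

open Finset Vale.Agent.P155.G45

/-! ### One-dimensional estimate -/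

lemma sq_diff_le (f : ℤ → ℝ) (a : ℤ) (L : ℕ) (i j : ℤ) (hi : a ≤ i) (hi' : i ≤ a + L)
    (hj : a ≤ j) (hj' : j ≤ a + L) :
    (f i - f j) ^ 2 ≤ L * ∑ k ∈ Ico a (a + L), (f (k + 1) - f k) ^ 2 := by
  have main : ∀ i j : ℤ, a ≤ i → i ≤ j → j ≤ a + L →
      (f j - f i) ^ 2 ≤ L * ∑ k ∈ Ico a (a + L), (f (k + 1) - f k) ^ 2 := by
    intro i j h1 h2 h3
    obtain ⟨m, rfl⟩ : ∃ m : ℕ, j = i + m := ⟨(j - i).toNat, by omega⟩
    have htel : ∀ m : ℕ, f (i + m) - f i = ∑ k ∈ Ico i (i + m), (f (k + 1) - f k) := by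
      intro m
      induction m with
      | zero => simp
      | succ m ih =>
        have e : Ico i (i + ((m + 1 : ℕ) : ℤ)) = insert (i + (m : ℤ)) (Ico i (i + m)) := by
          ext k
          simp only [mem_Ico, mem_insert]
          push_cast
          omega
        rw [e, sum_insert (by simp), ← ih]
        push_cast
        rw [← add_assoc]
        ring
    rw [htel m]
    have hcs := sq_sum_le_card_mul_sum_sq (s := Ico i (i + (m : ℤ))) (f := fun k => f (k + 1) - f k)
    refine hcs.trans ?_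
    have hcard : ((#(Ico i (i + (m : ℤ))) : ℕ) : ℝ) ≤ L := by
      rw [Int.card_Ico]
      have : (i + (m : ℤ) - i).toNat ≤ L := by omega
      exact_mod_cast this
    have hsub : Ico i (i + (m : ℤ)) ⊆ Ico a (a + L) := by
      intro k
      simp only [mem_Ico]
      omega
    calc ((#(Ico i (i + (m : ℤ))) : ℕ) : ℝ) * ∑ k ∈ Ico i (i + (m : ℤ)), (f (k + 1) - f k) ^ 2
        ≤ L * ∑ k ∈ Ico i (i + (m : ℤ)), (f (k + 1) - f k) ^ 2 := by
          gcongr
      _ ≤ L * ∑ k ∈ Ico a (a + L), (f (k + 1) - f k) ^ 2 := by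
          gcongr
  rcases le_total i j with h | h
  · have := main i j hi h hj'
    rw [← neg_sq]
    convert this using 2
    ring
  · exact main j i hj h hi'

/-! ### Contours -/

/-- The energy of the forward differences on the contour of radius `s`. -/
noncomputable def T (u : Pt → ℝ) (p : Pt) (N s : ℕ) : ℝ :=
  ∑ x ∈ (box p N).filter (fun x => dn p x = s), (Dx u x ^ 2 + Dy u x ^ 2)

lemma T_nonneg (u : Pt → ℝ) (p : Pt) (N s : ℕ) : 0 ≤ T u p N s :=
  Finset.sum_nonneg fun _ _ => by positivity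

lemma side_h (u : Pt → ℝ) (p : Pt) {N s : ℕ} (hs : s ≤ N) (y : ℤ) (hy : y = p.2 + s ∨ y = p.2 - s)
    (i j : ℤ) (hi : p.1 - s ≤ i) (hi' : i ≤ p.1 + s) (hj : p.1 - s ≤ j) (hj' : j ≤ p.1 + s) :
    (u (i, y) - u (j, y)) ^ 2 ≤ 2 * s * T u p N s := by
  have h := sq_diff_le (fun k => u (k, y)) (p.1 - s) (2 * s) i j hi (by push_cast; omega) hj
    (by push_cast; omega)
  refine h.trans ?_
  push_cast
  apply mul_le_mul_of_nonneg_left _ (by positivity)
  have e : ∑ k ∈ Ico (p.1 - (s : ℤ)) (p.1 - s + 2 * s), (u (k + 1, y) - u (k, y)) ^ 2 =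
      ∑ x ∈ (Ico (p.1 - (s : ℤ)) (p.1 - s + 2 * s)).image (fun k => ((k, y) : Pt)), Dx u x ^ 2 := by
    rw [Finset.sum_image]
    · rfl
    · intro k _ l _ h
      exact (Prod.mk.inj h).1
  rw [e]
  calc ∑ x ∈ (Ico (p.1 - (s : ℤ)) (p.1 - s + 2 * s)).image (fun k => ((k, y) : Pt)), Dx u x ^ 2
      ≤ ∑ x ∈ (box p N).filter (fun x => dn p x = s), Dx u x ^ 2 := by
        apply Finset.sum_le_sum_of_subset_of_nonneg
        · intro x hx
          obtain ⟨k, hk, rfl⟩ := Finset.mem_image.1 hx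
          rw [Finset.mem_Ico] at hk
          have hd : dn p (k, y) = s := by
            rw [dn_eq]; simp only; omega
          rw [Finset.mem_filter, mem_box]
          exact ⟨by omega, hd⟩
        · intro x _ _
          positivity
    _ ≤ T u p N s := by
        unfold T
        apply Finset.sum_le_sum
        intro x _
        linarith [sq_nonneg (Dy u x)]

lemma side_v (u : Pt → ℝ) (p : Pt) {N s : ℕ} (hs : s ≤ N) (y : ℤ) (hy : y = p.1 + s ∨ y = p.1 - s)
    (i j : ℤ) (hi : p.2 - s ≤ i) (hi' : i ≤ p.2 + s) (hj : p.2 - s ≤ j) (hj' : j ≤ p.2 + s) :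
    (u (y, i) - u (y, j)) ^ 2 ≤ 2 * s * T u p N s := by
  have h := sq_diff_le (fun k => u (y, k)) (p.2 - s) (2 * s) i j hi (by push_cast; omega) hj
    (by push_cast; omega)
  refine h.trans ?_
  push_cast
  apply mul_le_mul_of_nonneg_left _ (by positivity)
  have e : ∑ k ∈ Ico (p.2 - (s : ℤ)) (p.2 - s + 2 * s), (u (y, k + 1) - u (y, k)) ^ 2 =
      ∑ x ∈ (Ico (p.2 - (s : ℤ)) (p.2 - s + 2 * s)).image (fun k => ((y, k) : Pt)), Dy u x ^ 2 := by
    rw [Finset.sum_image]
    · rfl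
    · intro k _ l _ h
      exact (Prod.mk.inj h).2
  rw [e]
  calc ∑ x ∈ (Ico (p.2 - (s : ℤ)) (p.2 - s + 2 * s)).image (fun k => ((y, k) : Pt)), Dy u x ^ 2
      ≤ ∑ x ∈ (box p N).filter (fun x => dn p x = s), Dy u x ^ 2 := by
        apply Finset.sum_le_sum_of_subset_of_nonneg
        · intro x hx
          obtain ⟨k, hk, rfl⟩ := Finset.mem_image.1 hx
          rw [Finset.mem_Ico] at hk
          have hd : dn p (y, k) = s := by
            rw [dn_eq]; simp only; omega
          rw [Finset.mem_filter, mem_box]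
          exact ⟨by omega, hd⟩
        · intro x _ _
          positivity
    _ ≤ T u p N s := by
        unfold T
        apply Finset.sum_le_sum
        intro x _
        linarith [sq_nonneg (Dx u x)]

lemma corner (u : Pt → ℝ) (p : Pt) {N s : ℕ} (hs : s ≤ N) (x : Pt) (hx : dn p x = s) :
    (u x - u (p.1 + s, p.2 + s)) ^ 2 ≤ 8 * s * T u p N s := by
  have hT := T_nonneg u p N s
  have hsT : 0 ≤ (s : ℝ) * T u p N s := by positivity
  have hb : (p.1 - s ≤ x.1 ∧ x.1 ≤ p.1 + s) ∧ (p.2 - s ≤ x.2 ∧ x.2 ≤ p.2 + s) :=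
    dn_le_iff.1 hx.le
  have hcase : x.1 = p.1 + s ∨ x.2 = p.2 + s ∨ x.1 = p.1 - s ∨ x.2 = p.2 - s := by
    rw [dn_eq] at hx; omega
  have key : ∀ A B : ℝ, A ^ 2 ≤ 2 * s * T u p N s → B ^ 2 ≤ 2 * s * T u p N s →
      (A + B) ^ 2 ≤ 8 * s * T u p N s := by
    intro A B hA hB
    nlinarith [sq_nonneg (A - B)]
  rcases hcase with h | h | h | h
  · have h1 := side_v u p hs x.1 (Or.inl h) x.2 (p.2 + s) hb.2.1 hb.2.2 (by omega) le_rfl
    rw [← h]
    calc (u x - u (x.1, p.2 + s)) ^ 2 ≤ 2 * s * T u p N s := h1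
      _ ≤ 8 * s * T u p N s := by nlinarith
  · have h1 := side_h u p hs x.2 (Or.inl h) x.1 (p.1 + s) hb.1.1 hb.1.2 (by omega) le_rfl
    rw [← h]
    calc (u x - u (p.1 + s, x.2)) ^ 2 ≤ 2 * s * T u p N s := h1
      _ ≤ 8 * s * T u p N s := by nlinarith
  · have h1 := side_v u p hs x.1 (Or.inr h) x.2 (p.2 + s) hb.2.1 hb.2.2 (by omega) le_rfl
    have h2 := side_h u p hs (p.2 + s) (Or.inl rfl) x.1 (p.1 + s) hb.1.1 hb.1.2 (by omega) le_rfl
    have := key _ _ h1 h2
    rw [sub_add_sub_cancel] at this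
    exact this
  · have h1 := side_h u p hs x.2 (Or.inr h) x.1 (p.1 + s) hb.1.1 hb.1.2 (by omega) le_rfl
    have h2 := side_v u p hs (p.1 + s) (Or.inl rfl) x.2 (p.2 + s) hb.2.1 hb.2.2 (by omega) le_rfl
    have := key _ _ h1 h2
    rw [sub_add_sub_cancel] at this
    exact this

/-- The oscillation on a contour is controlled by the energy of the contour. -/
lemma contour (u : Pt → ℝ) (p : Pt) {N s : ℕ} (hs : s ≤ N) (x q : Pt) (hx : dn p x = s)
    (hq : dn p q = s) : (u x - u q) ^ 2 ≤ 32 * s * T u p N s := by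
  have h1 := corner u p hs x hx
  have h2 := corner u p hs q hq
  nlinarith [sq_nonneg ((u x - u (p.1 + s, p.2 + s)) + (u q - u (p.1 + s, p.2 + s)))]

lemma sum_T_le (u : Pt → ℝ) (p : Pt) (N c d : ℕ) (hd : d ≤ N) :
    ∑ s ∈ Icc c d, T u p N s ≤ ∑ x ∈ box p N, (Dx u x ^ 2 + Dy u x ^ 2) := by
  have hmap : ∀ x ∈ box p N, dn p x ∈ Finset.range (N + 1) := by
    intro x hx
    have := mem_box.1 hx
    simp; omega
  rw [← Finset.sum_fiberwise_of_maps_to hmap]
  apply Finset.sum_le_sum_of_subset_of_nonneg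
  · intro s hs
    rw [Finset.mem_Icc] at hs
    simp; omega
  · intro s _ _
    exact T_nonneg u p N s

/-! ### Caccioppoli identity -/

lemma fsum_shift (e : Pt) (F : Pt → ℝ) : ∑ᶠ x, F (x + e) = ∑ᶠ x, F x :=
  finsum_comp_equiv (Equiv.addRight e)

lemma fin_shift {g : Pt → ℝ} (hg : g.support.Finite) (e : Pt) (v : Pt → ℝ) :
    (Function.support fun x => g (x + e) * v x).Finite := by
  refine (hg.preimage (f := fun x => x + e) (add_left_injective e).injOn).subset ?_
  intro x hx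
  exact left_ne_zero_of_mul hx

lemma fin_mul {g : Pt → ℝ} (hg : g.support.Finite) (v : Pt → ℝ) :
    (Function.support fun x => g x * v x).Finite :=
  hg.subset (fun _ hx => left_ne_zero_of_mul hx)

lemma add10 (x : Pt) : (x.1 + 1, x.2) = x + ((1, 0) : Pt) := by ext <;> simp
lemma add01 (x : Pt) : (x.1, x.2 + 1) = x + ((0, 1) : Pt) := by ext <;> simp
lemma sub10 (x : Pt) : (x.1 - 1, x.2) = x - ((1, 0) : Pt) := by ext <;> simp
lemma sub01 (x : Pt) : (x.1, x.2 - 1) = x - ((0, 1) : Pt) := by ext <;> simp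

/-- First Green identity. -/
lemma green_first (g u : Pt → ℝ) (hg : g.support.Finite) :
    ∑ᶠ x, (Dx g x * Dx u x + Dy g x * Dy u x) = - ∑ᶠ x, g x * lap u x := by
  have s : ∀ e : Pt, ∑ᶠ x, g (x + e) * (u (x + e) - u x) = ∑ᶠ x, g x * (u x - u (x - e)) := by
    intro e
    have := fsum_shift e (fun x => g x * (u x - u (x - e)))
    simpa using this
  have A1 := fin_shift hg (1, 0) (fun x => u (x + (1, 0)) - u x)
  have A2 := fin_shift hg (0, 1) (fun x => u (x + (0, 1)) - u x)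
  have A3 := fin_mul hg (fun x => - Dx u x - Dy u x)
  have B1 := fin_mul hg (fun x => u x - u (x - (1, 0)))
  have B2 := fin_mul hg (fun x => u x - u (x - (0, 1)))
  have A12 := (A1.union A2).subset (Function.support_add _ _)
  have B12 := (B1.union B2).subset (Function.support_add _ _)
  have L : ∑ᶠ x, (Dx g x * Dx u x + Dy g x * Dy u x) =
      ∑ᶠ x, g (x + (1, 0)) * (u (x + (1, 0)) - u x) + ∑ᶠ x, g (x + (0, 1)) * (u (x + (0, 1)) - u x)
        + ∑ᶠ x, g x * (- Dx u x - Dy u x) := by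
    rw [← finsum_add_distrib A1 A2, ← finsum_add_distrib A12 A3]
    apply finsum_congr
    intro x
    simp only [Dx, Dy, add10, add01]
    ring
  have R : - ∑ᶠ x, g x * lap u x =
      ∑ᶠ x, g x * (u x - u (x - (1, 0))) + ∑ᶠ x, g x * (u x - u (x - (0, 1)))
        + ∑ᶠ x, g x * (- Dx u x - Dy u x) := by
    rw [← finsum_add_distrib B1 B2, ← finsum_add_distrib B12 A3, ← finsum_neg_distrib]
    apply finsum_congr
    intro x
    simp only [Dx, Dy, lap, add10, add01, sub10, sub01]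
    ring
  rw [L, R, s, s]

/-- Caccioppoli identity: the energy of `η u` when `η² u Δu = 0`. -/
lemma caccioppoli (η u : Pt → ℝ) (hη : η.support.Finite) (h0 : ∀ x, η x ^ 2 * u x * lap u x = 0) :
    ∑ᶠ x, (Dx (fun y => η y * u y) x ^ 2 + Dy (fun y => η y * u y) x ^ 2) =
      ∑ᶠ x, (u x * u (x.1 + 1, x.2) * Dx η x ^ 2 + u x * u (x.1, x.2 + 1) * Dy η x ^ 2) := by
  have hg : (Function.support fun y => η y ^ 2 * u y).Finite :=
    hη.subset (fun x hx => by
      intro h
      apply hx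
      simp only [h]
      ring)
  have h1 := green_first (fun y => η y ^ 2 * u y) u hg
  have h2 : ∑ᶠ x, η x ^ 2 * u x * lap u x = 0 := by
    simp only [h0, finsum_zero]
  rw [h2, neg_zero] at h1
  have hxs : (Function.support fun x => Dx η x).Finite := by
    have := (hη.preimage (f := fun x => x + ((1, 0) : Pt)) (add_left_injective _).injOn).union hη
    refine this.subset ?_
    intro x hx
    by_contra hcon
    simp only [Set.mem_union, Set.mem_preimage, Function.mem_support, not_or, not_not] at hcon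
    apply hx
    simp only [Dx, add10, hcon.1, hcon.2, sub_self]
  have hys : (Function.support fun x => Dy η x).Finite := by
    have := (hη.preimage (f := fun x => x + ((0, 1) : Pt)) (add_left_injective _).injOn).union hη
    refine this.subset ?_
    intro x hx
    by_contra hcon
    simp only [Set.mem_union, Set.mem_preimage, Function.mem_support, not_or, not_not] at hcon
    apply hx
    simp only [Dy, add01, hcon.1, hcon.2, sub_self]
  have hR : (Function.support fun x => (u x * u (x.1 + 1, x.2) * Dx η x ^ 2 +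
      u x * u (x.1, x.2 + 1) * Dy η x ^ 2)).Finite := by
    refine (hxs.union hys).subset ?_
    intro x hx
    by_contra hcon
    simp only [Set.mem_union, Function.mem_support, not_or, not_not] at hcon
    apply hx
    simp only [hcon.1, hcon.2]
    ring
  have hL : (Function.support fun x => (Dx (fun y => η y ^ 2 * u y) x * Dx u x +
      Dy (fun y => η y ^ 2 * u y) x * Dy u x)).Finite := by
    have e1 : (Function.support fun x => Dx (fun y => η y ^ 2 * u y) x * Dx u x) ⊆
        (fun x => x + ((1, 0) : Pt)) ⁻¹' η.support ∪ η.support := by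
      intro x hx
      by_contra hcon
      simp only [Set.mem_union, Set.mem_preimage, Function.mem_support, not_or, not_not] at hcon
      apply hx
      simp only [Dx, add10, hcon.1, hcon.2]
      ring
    have e2 : (Function.support fun x => Dy (fun y => η y ^ 2 * u y) x * Dy u x) ⊆
        (fun x => x + ((0, 1) : Pt)) ⁻¹' η.support ∪ η.support := by
      intro x hx
      by_contra hcon
      simp only [Set.mem_union, Set.mem_preimage, Function.mem_support, not_or, not_not] at hcon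
      apply hx
      simp only [Dy, add01, hcon.1, hcon.2]
      ring
    have f1 := (hη.preimage (f := fun x => x + ((1, 0) : Pt)) (add_left_injective _).injOn).union hη
    have f2 := (hη.preimage (f := fun x => x + ((0, 1) : Pt)) (add_left_injective _).injOn).union hη
    exact ((f1.subset e1).union (f2.subset e2)).subset (Function.support_add _ _)
  rw [← zero_add (∑ᶠ x, (u x * u (x.1 + 1, x.2) * Dx η x ^ 2 +
      u x * u (x.1, x.2 + 1) * Dy η x ^ 2)), ← h1, ← finsum_add_distrib hL hR]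
  apply finsum_congr
  intro x
  simp only [Dx, Dy]
  ring

/-! ### The cut-off -/

/-- ramp up from `a` to `2a` -/
noncomputable def r1 (a n : ℕ) : ℝ := min 1 (max 0 (((n : ℝ) - a) / a))

/-- ramp down from `b` to `2b` -/
noncomputable def r2 (b n : ℕ) : ℝ := min 1 (max 0 ((2 * (b : ℝ) - n) / b))

lemma r1_mem (a n : ℕ) : 0 ≤ r1 a n ∧ r1 a n ≤ 1 :=
  ⟨le_min zero_le_one (le_max_left _ _), min_le_left _ _⟩

lemma r2_mem (b n : ℕ) : 0 ≤ r2 b n ∧ r2 b n ≤ 1 :=
  ⟨le_min zero_le_one (le_max_left _ _), min_le_left _ _⟩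

lemma r1_zero {a n : ℕ} (h : n ≤ a) : r1 a n = 0 := by
  unfold r1
  have h' : (n : ℝ) ≤ a := by exact_mod_cast h
  have : ((n : ℝ) - a) / a ≤ 0 := div_nonpos_of_nonpos_of_nonneg (by linarith) (by positivity)
  rw [max_eq_left this]
  simp

lemma r2_zero {b n : ℕ} (h : 2 * b ≤ n) : r2 b n = 0 := by
  unfold r2
  have h' : 2 * (b : ℝ) ≤ n := by exact_mod_cast h
  have : (2 * (b : ℝ) - n) / b ≤ 0 := div_nonpos_of_nonpos_of_nonneg (by linarith) (by positivity)
  rw [max_eq_left this]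
  simp

lemma r1_one {a n : ℕ} (ha : 1 ≤ a) (h : 2 * a ≤ n) : r1 a n = 1 := by
  unfold r1
  have h' : 2 * (a : ℝ) ≤ n := by exact_mod_cast h
  have ha' : (0 : ℝ) < a := by exact_mod_cast ha
  have : 1 ≤ ((n : ℝ) - a) / a := by rw [le_div_iff₀ ha']; linarith
  rw [max_eq_right (by linarith), min_eq_left this]

lemma r2_one {b n : ℕ} (hb : 1 ≤ b) (h : n ≤ b) : r2 b n = 1 := by
  unfold r2
  have h' : (n : ℝ) ≤ b := by exact_mod_cast h
  have hb' : (0 : ℝ) < b := by exact_mod_cast hb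
  have : 1 ≤ (2 * (b : ℝ) - n) / b := by rw [le_div_iff₀ hb']; linarith
  rw [max_eq_right (by linarith), min_eq_left this]

lemma clip_lip (s t : ℝ) : |min 1 (max 0 s) - min 1 (max 0 t)| ≤ |s - t| :=
  (abs_min_sub_min_le_max 1 (max 0 s) 1 (max 0 t)).trans (by
    rw [sub_self, abs_zero]
    apply max_le (abs_nonneg _)
    refine (abs_max_sub_max_le_max 0 s 0 t).trans ?_
    rw [sub_self, abs_zero]
    exact max_le (abs_nonneg _) le_rfl)

lemma r1_lip {a : ℕ} (ha : 1 ≤ a) {n m : ℕ} (h1 : n ≤ m + 1) (h2 : m ≤ n + 1) :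
    (r1 a n - r1 a m) ^ 2 ≤ if n ≤ 2 * a then 1 / (a : ℝ) ^ 2 else 0 := by
  have ha' : (0 : ℝ) < a := by exact_mod_cast ha
  split_ifs with h
  · have h3 : |r1 a n - r1 a m| ≤ 1 / a := by
      refine (clip_lip _ _).trans ?_
      rw [← sub_div, abs_div, abs_of_pos ha']
      apply div_le_div_of_nonneg_right _ ha'.le
      have e1 : (n : ℝ) ≤ m + 1 := by exact_mod_cast h1
      have e2 : (m : ℝ) ≤ n + 1 := by exact_mod_cast h2
      rw [abs_le]; constructor <;> linarith
    rw [← sq_abs]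
    calc |r1 a n - r1 a m| ^ 2 ≤ (1 / (a : ℝ)) ^ 2 := by gcongr
      _ = 1 / (a : ℝ) ^ 2 := by rw [div_pow, one_pow]
  · rw [r1_one ha (by omega), r1_one ha (by omega)]
    simp

lemma r2_lip {b : ℕ} (hb : 1 ≤ b) {n m : ℕ} (h1 : n ≤ m + 1) (h2 : m ≤ n + 1) :
    (r2 b n - r2 b m) ^ 2 ≤ 1 / (b : ℝ) ^ 2 := by
  have hb' : (0 : ℝ) < b := by exact_mod_cast hb
  have h3 : |r2 b n - r2 b m| ≤ 1 / b := by
    refine (clip_lip _ _).trans ?_
    rw [← sub_div, abs_div, abs_of_pos hb']
    apply div_le_div_of_nonneg_right _ hb'.le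
    have e1 : (n : ℝ) ≤ m + 1 := by exact_mod_cast h1
    have e2 : (m : ℝ) ≤ n + 1 := by exact_mod_cast h2
    rw [abs_le]; constructor <;> linarith
  rw [← sq_abs]
  calc |r2 b n - r2 b m| ^ 2 ≤ (1 / (b : ℝ)) ^ 2 := by gcongr
    _ = 1 / (b : ℝ) ^ 2 := by rw [div_pow, one_pow]

/-- The cut-off. -/
noncomputable def et (p : Pt) (a b : ℕ) (x : Pt) : ℝ := r1 a (dn p x) * r2 b (dn p x)

lemma prod_lip {s t s' t' : ℝ} (hs : 0 ≤ s ∧ s ≤ 1) (ht' : 0 ≤ t' ∧ t' ≤ 1) :
    (s * t - s' * t') ^ 2 ≤ 2 * ((s - s') ^ 2 + (t - t') ^ 2) := by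
  have e : s * t - s' * t' = s * (t - t') + t' * (s - s') := by ring
  rw [e]
  have h1 : (s * (t - t')) ^ 2 ≤ (t - t') ^ 2 := by
    rw [mul_pow]
    have : s ^ 2 ≤ 1 := by nlinarith [hs.1, hs.2]
    nlinarith [sq_nonneg (t - t')]
  have h2 : (t' * (s - s')) ^ 2 ≤ (s - s') ^ 2 := by
    rw [mul_pow]
    have : t' ^ 2 ≤ 1 := by nlinarith [ht'.1, ht'.2]
    nlinarith [sq_nonneg (s - s')]
  nlinarith [sq_nonneg (s * (t - t') - t' * (s - s'))]

lemma et_lip (p : Pt) {a b : ℕ} (ha : 1 ≤ a) (hb : 1 ≤ b) {x y : Pt} (h : dn x y ≤ 1) :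
    (et p a b y - et p a b x) ^ 2 ≤
      2 * ((if dn p x ≤ 2 * a then 1 / (a : ℝ) ^ 2 else 0) + 1 / (b : ℝ) ^ 2) := by
  have t1 := dn_tri p x y
  have t2 := dn_tri p y x
  rw [dn_comm y x] at t2
  have h1 := r1_lip ha (n := dn p x) (m := dn p y) (by omega) (by omega)
  have h2 := r2_lip hb (n := dn p x) (m := dn p y) (by omega) (by omega)
  have h3 : (et p a b y - et p a b x) ^ 2 = (et p a b x - et p a b y) ^ 2 := by ring
  rw [h3]
  unfold et
  refine (prod_lip (r1_mem _ _) (r2_mem _ _)).trans ?_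
  linarith

lemma et_pos_iff {p : Pt} {a b : ℕ} {x : Pt} (h : et p a b x ≠ 0) : a < dn p x ∧ dn p x < 2 * b := by
  constructor
  · by_contra hc
    exact h (by unfold et; rw [r1_zero (by omega)]; ring)
  · by_contra hc
    exact h (by unfold et; rw [r2_zero (by omega)]; ring)

lemma et_supp (p : Pt) (a b : ℕ) : (et p a b).support.Finite := by
  apply (box p (2 * b)).finite_toSet.subset
  intro x hx
  exact mem_box.2 (et_pos_iff hx).2.le

/-- Energy bound for the cut-off function. -/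
lemma energy_cut {O : Set Pt} {p : Pt} {a b : ℕ} (ha : 1 ≤ a) (hab : 2 * a ≤ b) {M : ℝ}
    {u : Pt → ℝ} (hoff : ∀ x, x ∉ O → u x = 0)
    (hlap : ∀ x ∈ O, a < dn p x → dn p x < 2 * b → lap u x = 0)
    (hM : ∀ x, a ≤ dn p x → dn p x ≤ 2 * b → |u x| ≤ M) :
    ∑ x ∈ box p (2 * b), (Dx (fun y => et p a b y * u y) x ^ 2 +
      Dy (fun y => et p a b y * u y) x ^ 2) ≤ 200 * M ^ 2 := by
  classical
  have hb : 1 ≤ b := by omega
  have h0 : ∀ x, et p a b x ^ 2 * u x * lap u x = 0 := by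
    intro x
    by_cases hx : et p a b x = 0
    · rw [hx]; ring
    · by_cases hxO : x ∈ O
      · rw [hlap x hxO (et_pos_iff hx).1 (et_pos_iff hx).2]; ring
      · rw [hoff x hxO]; ring
  have hc := caccioppoli (et p a b) u (et_supp p a b) h0
  have hd1 : ∀ x : Pt, dn x (x.1 + 1, x.2) ≤ 1 := by
    intro x; rw [dn_eq]; simp
  have hd2 : ∀ x : Pt, dn x (x.1, x.2 + 1) ≤ 1 := by
    intro x; rw [dn_eq]; simp
  have near : ∀ x y : Pt, dn x y ≤ 1 → et p a b y - et p a b x ≠ 0 →
      (a ≤ dn p x ∧ dn p x ≤ 2 * b) ∧ (a ≤ dn p y ∧ dn p y ≤ 2 * b) := by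
    intro x y hxy hne
    have t1 := dn_tri p x y
    have t2 := dn_tri p y x
    rw [dn_comm y x] at t2
    by_cases hx : et p a b x = 0
    · have hy : et p a b y ≠ 0 := by
        intro hy; rw [hx, hy] at hne; simp at hne
      have := et_pos_iff hy
      omega
    · have := et_pos_iff hx
      omega
  have hL : Function.support (fun x => (Dx (fun y => et p a b y * u y) x ^ 2 +
      Dy (fun y => et p a b y * u y) x ^ 2)) ⊆ (box p (2 * b) : Set Pt) := by
    intro x hx
    by_contra hcon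
    have hcon' : ¬ dn p x ≤ 2 * b := fun h => hcon (mem_box.2 h)
    have z : ∀ y : Pt, dn x y ≤ 1 → et p a b y = 0 := by
      intro y hy
      by_contra hne
      have := et_pos_iff hne
      have t2 := dn_tri p y x
      rw [dn_comm y x] at t2
      omega
    apply hx
    simp only [Dx, Dy]
    rw [z x (by rw [dn_self]; omega), z _ (hd1 x), z _ (hd2 x)]
    ring
  have hR : Function.support (fun x => (u x * u (x.1 + 1, x.2) * Dx (et p a b) x ^ 2 +
      u x * u (x.1, x.2 + 1) * Dy (et p a b) x ^ 2)) ⊆ (box p (2 * b) : Set Pt) := by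
    intro x hx
    by_contra hcon
    have hcon' : ¬ dn p x ≤ 2 * b := fun h => hcon (mem_box.2 h)
    have z : ∀ y : Pt, dn x y ≤ 1 → et p a b y = 0 := by
      intro y hy
      by_contra hne
      have := et_pos_iff hne
      have t2 := dn_tri p y x
      rw [dn_comm y x] at t2
      omega
    apply hx
    simp only [Dx, Dy]
    rw [z x (by rw [dn_self]; omega), z _ (hd1 x), z _ (hd2 x)]
    ring
  rw [finsum_eq_sum_of_support_subset _ hL, finsum_eq_sum_of_support_subset _ hR] at hc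
  rw [hc]
  have term : ∀ x y : Pt, dn x y ≤ 1 → u x * u y * (et p a b y - et p a b x) ^ 2 ≤
      M ^ 2 * (2 * ((if dn p x ≤ 2 * a then 1 / (a : ℝ) ^ 2 else 0) + 1 / (b : ℝ) ^ 2)) := by
    intro x y hxy
    have hlip := et_lip p ha hb hxy
    by_cases hne : et p a b y - et p a b x = 0
    · rw [hne]
      have : (0 : ℝ) ≤ 2 * ((if dn p x ≤ 2 * a then 1 / (a : ℝ) ^ 2 else 0) + 1 / (b : ℝ) ^ 2) := by
        split_ifs <;> positivity
      have h2 : 0 ≤ M ^ 2 := sq_nonneg M
      have := mul_nonneg h2 this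
      linarith
    · obtain ⟨h1, h2⟩ := near x y hxy hne
      have m1 := hM x h1.1 h1.2
      have m2 := hM y h2.1 h2.2
      have h3 : u x * u y ≤ M ^ 2 := by
        calc u x * u y ≤ |u x * u y| := le_abs_self _
          _ = |u x| * |u y| := abs_mul _ _
          _ ≤ M * M := mul_le_mul m1 m2 (abs_nonneg _) ((abs_nonneg _).trans m1)
          _ = M ^ 2 := by ring
      calc u x * u y * (et p a b y - et p a b x) ^ 2
          ≤ M ^ 2 * (et p a b y - et p a b x) ^ 2 :=
            mul_le_mul_of_nonneg_right h3 (sq_nonneg _)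
        _ ≤ _ := mul_le_mul_of_nonneg_left hlip (sq_nonneg M)
  have hsum : ∑ x ∈ box p (2 * b), (u x * u (x.1 + 1, x.2) * Dx (et p a b) x ^ 2 +
      u x * u (x.1, x.2 + 1) * Dy (et p a b) x ^ 2) ≤
      ∑ x ∈ box p (2 * b), (4 * M ^ 2 * ((if dn p x ≤ 2 * a then 1 / (a : ℝ) ^ 2 else 0) +
        1 / (b : ℝ) ^ 2)) := by
    apply Finset.sum_le_sum
    intro x _
    have e1 := term x (x.1 + 1, x.2) (hd1 x)
    have e2 := term x (x.1, x.2 + 1) (hd2 x)
    simp only [Dx, Dy]
    linarith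
  refine hsum.trans ?_
  rw [← Finset.mul_sum, Finset.sum_add_distrib, ← Finset.sum_filter, Finset.sum_const,
    Finset.sum_const, nsmul_eq_mul, nsmul_eq_mul]
  have hfil : (box p (2 * b)).filter (fun x => dn p x ≤ 2 * a) = box p (2 * a) := by
    ext x
    rw [Finset.mem_filter, mem_box, mem_box]
    omega
  rw [hfil, card_box, card_box]
  have ha' : (1 : ℝ) ≤ a := by exact_mod_cast ha
  have hb' : (1 : ℝ) ≤ b := by exact_mod_cast hb
  have c1 : (((2 * (2 * a) + 1) ^ 2 : ℕ) : ℝ) * (1 / (a : ℝ) ^ 2) ≤ 25 := by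
    rw [mul_one_div, div_le_iff₀ (by positivity)]
    push_cast
    nlinarith
  have c2 : (((2 * (2 * b) + 1) ^ 2 : ℕ) : ℝ) * (1 / (b : ℝ) ^ 2) ≤ 25 := by
    rw [mul_one_div, div_le_iff₀ (by positivity)]
    push_cast
    nlinarith
  nlinarith [sq_nonneg M]

/-! ### Harmonic sums -/

lemma harm_dyadic (m : ℕ) : ∀ a : ℕ, 1 ≤ a → (m : ℝ) / 2 ≤ ∑ s ∈ Ico a (2 ^ m * a), 1 / (s : ℝ) := by
  induction m with
  | zero => intro a _; simp
  | succ m ih =>
    intro a ha
    have h1 := ih a ha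
    have hle : a ≤ 2 ^ m * a := Nat.le_mul_of_pos_left a (by positivity)
    have hle2 : 2 ^ m * a ≤ 2 ^ (m + 1) * a := by
      rw [pow_succ]; nlinarith
    rw [← Finset.sum_Ico_consecutive _ hle hle2]
    have h2 : (1 : ℝ) / 2 ≤ ∑ s ∈ Ico (2 ^ m * a) (2 ^ (m + 1) * a), 1 / (s : ℝ) := by
      have hN : (0 : ℝ) < ((2 ^ m * a : ℕ) : ℝ) := by
        have : 0 < 2 ^ m * a := by positivity
        exact_mod_cast this
      calc (1 : ℝ) / 2 = ∑ s ∈ Ico (2 ^ m * a) (2 ^ (m + 1) * a), 1 / (2 * ((2 ^ m * a : ℕ) : ℝ)) := by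
            rw [Finset.sum_const, Nat.card_Ico, nsmul_eq_mul]
            have e : 2 ^ (m + 1) * a = 2 ^ m * a + 2 ^ m * a := by ring
            have : 2 ^ (m + 1) * a - 2 ^ m * a = 2 ^ m * a := by omega
            rw [this]
            field_simp
        _ ≤ _ := by
            apply Finset.sum_le_sum
            intro s hs
            rw [Finset.mem_Ico] at hs
            have hs0 : (0 : ℝ) < s := by
              have : 0 < s := by have : 0 < 2 ^ m * a := by positivity
                                 omega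
              exact_mod_cast this
            apply one_div_le_one_div_of_le hs0
            have : s ≤ 2 * (2 ^ m * a) := by
              rw [pow_succ] at hs
              have := hs.2
              nlinarith
            exact_mod_cast this
    push_cast
    linarith

lemma exists_harm_K : ∃ K : ℕ, 2 ≤ K ∧ ∀ a : ℕ, 1 ≤ a →
    (25600 : ℝ) ≤ ∑ s ∈ Icc (2 * a) (K * a), 1 / (s : ℝ) := by
  obtain ⟨m, hm⟩ := exists_nat_ge (51200 : ℝ)
  refine ⟨2 ^ m * 2, by have : 0 < 2 ^ m := by positivity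
                        omega, fun a ha => ?_⟩
  have h := harm_dyadic m (2 * a) (by omega)
  have hsub : Ico (2 * a) (2 ^ m * (2 * a)) ⊆ Icc (2 * a) (2 ^ m * 2 * a) := by
    intro s hs
    rw [Finset.mem_Ico] at hs
    rw [Finset.mem_Icc]
    constructor
    · exact hs.1
    · have := hs.2
      rw [mul_assoc]; omega
  have h2 := Finset.sum_le_sum_of_subset_of_nonneg (f := fun s : ℕ => 1 / (s : ℝ)) hsub
    (fun s _ _ => by positivity)
  linarith

/-- **Decay in an annulus.** -/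
theorem annulus : ∃ K : ℕ, 2 ≤ K ∧ ∀ (O : Set Pt) (p : Pt) (a : ℕ) (M : ℝ) (u : Pt → ℝ), 1 ≤ a →
    (∀ r : ℕ, 2 * a ≤ r → r ≤ K * a → ∃ q, q ∉ O ∧ dn p q = r) → (∀ x, x ∉ O → u x = 0) →
    (∀ x ∈ O, a < dn p x → dn p x < 2 * (K * a) → lap u x = 0) →
    (∀ x, a ≤ dn p x → dn p x ≤ 2 * (K * a) → |u x| ≤ M) →
    ∃ s, 2 * a ≤ s ∧ s ≤ K * a ∧ ∀ x, dn p x = s → |u x| ≤ M / 2 := by
  obtain ⟨K, hK2, hK⟩ := exists_harm_K
  refine ⟨K, hK2, ?_⟩
  intro O p a M u ha hz hoff hlap hM
  by_contra hcon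
  push Not at hcon
  have hab : 2 * a ≤ K * a := Nat.mul_le_mul_right a hK2
  have hen := energy_cut ha hab hoff hlap hM
  set w : Pt → ℝ := fun y => et p a (K * a) y * u y with hw
  have hsum := sum_T_le w p (2 * (K * a)) (2 * a) (K * a) (by omega)
  have hT : ∀ s ∈ Icc (2 * a) (K * a), M ^ 2 / 128 * (1 / (s : ℝ)) < T w p (2 * (K * a)) s := by
    intro s hs
    rw [Finset.mem_Icc] at hs
    obtain ⟨x, hx, hxu⟩ := hcon s hs.1 hs.2
    obtain ⟨q, hqO, hq⟩ := hz s hs.1 hs.2
    have hc := contour w p (N := 2 * (K * a)) (s := s) (by omega) x q hx hq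
    have hq0 : w q = 0 := by rw [hw]; simp only [hoff q hqO, mul_zero]
    have hx1 : w x = u x := by
      simp only [hw, et, hx]
      rw [r1_one ha hs.1, r2_one (by omega) hs.2]
      ring
    rw [hq0, hx1, sub_zero] at hc
    have hs0 : (0 : ℝ) < s := by
      have : 0 < s := by omega
      exact_mod_cast this
    have hM0 : 0 ≤ M := (abs_nonneg _).trans (hM x (by omega) (by omega))
    have h4 : M ^ 2 / 4 < u x ^ 2 := by
      rw [← sq_abs (u x)]
      nlinarith [abs_nonneg (u x)]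
    have h5 : M ^ 2 / 4 < 32 * s * T w p (2 * (K * a)) s := lt_of_lt_of_le h4 hc
    rw [mul_one_div, div_lt_iff₀ hs0]
    nlinarith
  have hne : (Icc (2 * a) (K * a)).Nonempty := ⟨2 * a, Finset.mem_Icc.2 ⟨le_rfl, hab⟩⟩
  have h6 := Finset.sum_lt_sum_of_nonempty hne hT
  rw [← Finset.mul_sum] at h6
  have h7 := hK a ha
  have h8 : M ^ 2 / 128 * 25600 ≤ M ^ 2 / 128 * ∑ s ∈ Icc (2 * a) (K * a), 1 / (s : ℝ) :=
    mul_le_mul_of_nonneg_left h7 (by positivity)
  linarith

end Vale.Agent.P155.G1
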